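import Crest.Agent.X212.Nt66.Defs
import Crest.Agent.X212.Nk89.Geo

/-! Row 212, NT-CMP: the Sobolev frames of two charts are comparable; fixed limits do not move. -/

set_option autoImplicit false
set_option linter.unusedSectionVars false
noncomputable section
open scoped Manifold ContDiff Topology InnerProductSpace NNReal
open MeasureTheory Set Function Filter

namespace Crest.Agent.X212.Ncm43
open An M Nd18 Mod61 Nk89 Cht98 Rf65 Pte3 Prm93 Sob92 Met55

section gen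
variable {E : Type} [NormedAddCommGroup E] [NormedSpace ℝ E] [FiniteDimensional ℝ E]
  [MeasurableSpace E] [BorelSpace E]
  {HM : Type} [TopologicalSpace HM] {I : ModelWithCorners ℝ E HM} [I.Boundaryless]
  {M : Type} [TopologicalSpace M] [ChartedSpace HM M] [IsManifold I ∞ M]
  [MeasurableSpace M] [T2Space M] [BorelSpace M] [SecondCountableTopology M]
  {ι : Type} [Fintype ι] {lam : Type} [Fintype lam]

theorem wm_mono {μ ν : Measure M} {c : ℝ≥0} (h : ν ≤ c • μ) (ψ : M → ℝ) :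
    wm ν ψ ≤ c • wm μ ψ := Measure.le_iff.2 fun s hs => by
  rw [Measure.coe_nnreal_smul_apply, wm, wm, withDensity_apply _ hs, withDensity_apply _ hs]
  refine (lintegral_mono' (Measure.restrict_mono_measure h s) le_rfl).trans_eq ?_
  rw [Measure.restrict_smul, lintegral_smul_measure]
  rfl

/-- backgrounds that agree off a compact set, with the same weight -/
theorem dom_out {B : Base M ι lam} {G G' : Geo I M ι lam} {K : Set M} (hK : IsCompact K)
    (hG : G.OK B) (hG' : G'.OK B) (tame : ∃ C, G.F.Tame C) (h : Agr G G' Kᶜ) {F F' : Pre I M ι}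
    {ψ : M → ℝ} (w : WtP G.F.toPre F ψ) (w' : WtP G'.F.toPre F' ψ) : Dom F F' := by
  obtain ⟨c, hc⟩ := meas_le_compact G.F.toPre G'.F.toPre hK
  refine ⟨⟨fun a b x => trS G.F G'.F x a b, fun a x => ?_, fun a b => w.Cb.2 ?_⟩, c + 1, ?_⟩
  · rw [w.e, w'.e]; exact trS_mix G.F G'.F a x
  · have hu : G.F.Cb (G.F.P a b) := ⟨_, tame.choose_spec.P a b⟩
    beta_reduce
    rw [← add_sub_cancel (G.F.P a b) fun x => trS G.F G'.F x a b]
    exact Cb_add hu (Cb_of_hcs ((trS_sm _ _ a b).sub hu.choose_spec.1)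
      (HasCompactSupport.intro hK fun x hx => sub_eq_zero.2 (h.S hx a b).1))
  · rw [w.μ, w'.μ]
    refine wm_mono ?_ ψ
    rw [← Measure.restrict_add_restrict_compl (μ := G'.F.μ) hK.measurableSet, add_smul, one_smul,
      h.μ hG.vol hG'.vol]
    exact add_le_add hc Measure.restrict_le_self

/-- a reference whose slices are fixed up to one gauge does not move on the end -/
theorem b_end {κ : Type} [Fintype κ] {T : Type} [NormedAddCommGroup T] [NormedSpace ℝ T]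
    {𝔉 : Fam I M (Option κ) lam T} {P : End 𝔉} {o : Ref 𝔉} {ψ : M → ℝ} {δ R₀ R : ℝ} (k : 𝔉.OK)
    (hP : P.OK ψ δ R₀) (hR : R₀ ≤ R) (hl : P.Lit o R) (hQ : 𝔉.Q.Nonempty)
    {β : YC P.Y.M κ lam} {v : P.Y.M × ℝ → CL β.m.V o.m.V}
    (mv : ∀ t ∈ 𝔉.Q, Mod61.EqOn P.D.B P.D.Z univ (cy β) (cy (P.sl o (R + 1) t)) v 1) (τ : T) :
    ∀ x ∈ P.U R, o.b τ x = 0 := fun x hx => by
  obtain ⟨z, hz, rfl⟩ := hP.exists_ψ hx
  have hx' : P.K.ψ z ∈ P.U R₀ := ⟨hx.1, hR.trans_lt hx.2⟩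
  have hW : ∀ t ∈ 𝔉.Q, ∀ a, o.W t 0 a (P.K.ψ z) = o.A0 a (P.K.ψ z) + opL (o.b t (P.K.ψ z) a) :=
    fun t ht a => by
      have := (o.connA k.B t).cc.proj a (P.K.ψ z)
      simp only [Ref.W, Md.addC, Fam.W0, (hP.S t ht _ hx' _ _).1, (hP.cf t ht _ hx').1,
        (hP.cf t ht _ hx').2, Pi.zero_apply, zero_smul, Finset.sum_const_zero, add_zero, map_zero,
        PiLp.zero_apply]
      exact this
  have key : ∀ t ∈ 𝔉.Q, ∀ t' ∈ 𝔉.Q, o.b (t - t') (P.K.ψ z) = 0 := fun t ht t' ht' => by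
    ext a : 1
    have e : ∀ t ∈ 𝔉.Q, P.D.Z.D a v z + (∑ b, 𝔉.B.P a b (P.K.ψ z) • o.A0 b (P.K.ψ z) +
        opL (o.b t (P.K.ψ z) a)) ∘L v z - v z ∘L β.W a z.1 = 0 := fun t ht => by
      refine Eq.trans ?_ ((mv t ht).W z trivial a)
      rw [← o.b_proj k.B t, map_sum, ← Finset.sum_add_distrib]
      refine congrArg (fun w : CL o.m.V o.m.V => P.D.Z.D a v z + w ∘L v z - v z ∘L β.W a z.1) ?_
      refine Finset.sum_congr rfl fun b _ => ?_
      rw [map_smul, ← smul_add, ← hW t ht, (hl.at ht hz).2.2.2.1, (k.B.pr _).symm,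
        P.K.P b a z (hP.src (hR.trans hz.le))]
      rfl
    have e1 : opL (o.b (t - t') (P.K.ψ z) a) ∘L v z = 0 := by
      rw [← sub_self (0 : CL β.m.V o.m.V)]
      conv_rhs => rw [← e t ht]; arg 2; rw [e t ht, ← e t' ht']
      simp only [map_sub, Pi.sub_apply, PiLp.sub_apply, ContinuousLinearMap.sub_comp,
        ContinuousLinearMap.add_comp]
      abel
    have e2 : v z ∘L trn (v z) = o.m.p (P.K.ψ z) :=
      ((mv t ht).m.uu' z trivial).trans (hl.at ht hz).1.symm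
    refine Wz78.opL_inj ?_
    rw [← Wz78.g_p' o.ok (o.b_mem _ _ a), ← e2, ContinuousLinearMap.mul_def,
      ← ContinuousLinearMap.comp_assoc, e1]
    simp
  obtain ⟨t, ht⟩ := hQ
  have h1 : ∀ᶠ s : ℝ in 𝓝[≠] 0, t + s • τ ∈ 𝔉.Q := nhdsWithin_le_nhds
    ((by fun_prop : Continuous fun s : ℝ => t + s • τ).continuousAt.eventually
      (k.opn.mem_nhds (by simpa using ht)))
  obtain ⟨s, h2, h3⟩ := (h1.and self_mem_nhdsWithin).exists
  have := key _ h2 _ ht
  rw [add_sub_cancel_left, map_smul, Pi.smul_apply] at this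
  exact (smul_eq_zero.1 this).resolve_left h3

end gen

variable {Wi : Type} {X : Mf 4} {A κ lam : Type} [Fintype A] [Fintype κ] [Fintype lam]
  [DecidableEq lam] {M : Mark X A κ} {W : World M} {N : ML M lam} {Λ : Lns W N}
  {A' h : Type} [Fintype A'] [DecidableEq A'] [Fintype h] {r n : ℕ}
  {J : Job Wi Λ A' h r n} {c : M.Cl}

theorem tau_eq (hJ : J.OK) (b b' : Bp J c) (i : Ed c) (x : (W.Z c).M) :
    (J.K c i.1 (some i.2) _ ⟨i.1.2.2, b.br, b.O, i.1.2.1⟩).τ x =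
      (J.K c i.1 (some i.2) _ ⟨i.1.2.2, b'.br, b'.O, i.1.2.1⟩).τ x := by
  have ac : ∀ b : Bp J c, Act J.m c i.1.1 (some i.2) (J.Θ b.s) :=
    fun b => ⟨i.1.2.2, b.br, b.O, i.1.2.1⟩
  have nk := fun b : Bp J c => hJ.nk c i.1 (some i.2) _ (ac b)
  have h1 : ∀ b : Bp J c, (J.Θ b.s).2 i.1 = 1 := fun b => b.br.2 i.1.2.1
  have tg : ∀ b : Bp J c, (J.K c i.1 (some i.2) _ (ac b)).ψ.target =
      hZ W.toCaps c i.1 ⁻¹' Cht98.Hs 1 i.2 := fun b => by
    rw [isNk_target (ac b) (nk b), h1]; rfl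
  by_cases hx : x ∈ hZ W.toCaps c i.1 ⁻¹' Cht98.Hs 1 i.2
  · rw [Nk.τ, Nk.τ, (nk b).lo, (nk b').lo, (nk b).hi, (nk b').hi,
      isNk_tm (ac b) (nk b) (tg b ▸ hx), isNk_tm (ac b') (nk b') (tg b' ▸ hx), h1, h1]
  · have z : ∀ b : Bp J c, (J.K c i.1 (some i.2) _ (ac b)).τ x = 0 := fun b => by
      have e := endIn_J (θ := fun _ : T0 => b.s) hJ b.br b.O contDiff_const isClopen_empty
        isClopen_empty Subset.rfl
      have := (e.st i).τ_zero (x := x) (tg b ▸ hx)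
      exact (mul_eq_zero.1 this).resolve_left fun k => by
        simpa [k] using abs_sg (jEnd ∅ ∅ (fun _ : T0 => b.s) b.br b.O i)
    rw [z b, z b']

theorem dom (hJ : J.OK) (δ : ℝ) (b b' : Bp J c) (p p' : Prt A A' h) (U U' : Type) [Fintype U]
    [Fintype U'] : Dom (b.F p U δ).F0.toPre (b'.F p' U' δ).F0.toPre := by
  refine dom_out (isCompact_thk W.toCaps c (J.Θ b.s) one_pos (by norm_num)) (Λ.G_ok J.m b.O)
    (Λ.G_ok J.m b'.O) (tame_W W J.m b.O) (agr_thk Λ b.O b'.O) (wt_wt _ _).toWtP ?_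
  have e : wψ (jEnd (W.un c p.P) (W.un c p.P') (b.θ p U) b.br b.O) δ =
      wψ (jEnd (W.un c p'.P) (W.un c p'.P') (b'.θ p' U') b'.br b'.O) δ := funext fun x =>
    congrArg (δ * ·) (Finset.sum_congr rfl fun i _ => congrArg _ (tau_eq hJ b b' i x))
  exact e ▸ (wt_wt _ _).toWtP

theorem cmp : Nt66.CmpStmt J c := fun hJ δ => by
  refine ⟨fun b b' p p' U U' _ _ => ⟨dom hJ δ b b' p p' U U', dom hJ δ b' b p' p U' U⟩,
    fun σ p U _ _ b E H τ => ?_⟩
  refine Hs_sec H.F.sup ⟨E.o.b τ, (E.o.sb.cb τ trivial).choose_spec.1,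
    HasCompactSupport.intro (H.ee.cov' E.R) fun x hx => ?_, E.o.bP τ⟩
  obtain ⟨i, hi⟩ := mem_iUnion.1 (not_not.1 hx)
  rcases (H.ee.okP i).dich H.F.Om le_rfl with k | k
  · exact b_end H.F (H.ee.okP i) H.eo.R5 (H.eo.lit i)
      ⟨(fun a => b.s a, 0), H.mem_Q H.hb H.hb fun _ => rfl⟩ (β := E.lim i 0) (v := E.v i)
      (fun t ht => by
        have := H.eo.mov i ((H.act_iff H.eo.d0 H.eo.d1).1 k) t ht
        have e : E.μ i = none := Option.eq_none_iff_forall_ne_some.2 fun u => isEmptyElim u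
        have e' : E.lm i t = E.lm i 0 := by simp only [EC.lm, e, Option.elim]
        unfold EC.lim at this ⊢
        exact e' ▸ this) τ x hi
  · have := E.o.bP τ x
    rw [indicator_of_notMem (k ⟨hi.1, H.eo.R5.trans_lt hi.2⟩)] at this
    rw [← this]
    ext a : 1
    simp [Wz78.idx_apply]

end Crest.Agent.X212.Ncm43
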