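import Crest.Agent.X212.Cqn41.Nr0
import Crest.Agent.X212.Num57.Nti

/-! # Row 212, NTR-IX (helper43): the indices of the restricted charts, with the terms -/

set_option autoImplicit false
set_option linter.unusedSectionVars false
noncomputable section
open scoped Manifold ContDiff Topology
open MeasureTheory Set Function Filter

namespace Crest.Agent.X212.Ncm43
open An M Nd18 Mod61 Nk89 Cht98 Rf65 Rdc90 Pte3 Eqv71 Wrd81 Spl54 Nt66 Nti57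

section job
variable {Wi : Type} {X : Mf 4} {A κ lam : Type} [Fintype A] [Fintype κ] [Fintype lam]
  [DecidableEq lam] {M : Mark X A κ} {W : World M} {N : ML M lam} {Λ : Lns W N}
  {A' h : Type} [Fintype A'] [DecidableEq A'] [Fintype h] {r n : ℕ}
  {J : Job Wi Λ A' h r n} {c : M.Cl} {σ : Cel A'} {δ : ℝ}
  {p : Prt A A' h} {U : Type} [Fintype U] {b : Bp J c} {E : EC b p U δ} {y : J.Obc c}
  {x : Pnt E.o r} {ψ : E.K} {δ₀ : ℝ} {μ : Ed c → Option U} {P P' : Set (Reg A)}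

/-- the terms do not change the index -/
theorem idx_tot (H : PG J c σ p) (hb : J.Ov σ c b.s) (eo : E.OK) (z : E.o.Φ0 = 0) (hP : PJ J c)
    (hδ : δ ≤ 1 / 16)
    (hF : ∀ a ∈ cylW c, ∀ β f, Bs (J.xs a).D β → Fz κ (lam ⊕ lam) 8 (Add46.jX J a) f β δ)
    (hf : ∀ i ∈ EdP c p.P, ∀ t ∈ (b.F p U δ).Q, Flt (J.xs i.1).D ((en E i).sl E.o (E.R + 1) t))
    {d : ℤ} (hd : Idx 8 ((b.F p U δ).eq0 r n (min r 1)) x d) (q : Wi →₀ ℝ) :
    Idx 8 (EC.tot b p U δ q) x d := by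
  let Y := H.ends U b eo.d0 eo.d1
  have hl : Y.Lit E.o E.R := ⟨eo.R5, eo.lit⟩
  have A0 := Add46.aff_eq0 (r := r) (n := n) (m := min r 1) Y hl z fun i k =>
    hf i ((H.act_iff _ _).1 k)
  have hs := Mon62.smU H hP hb eo hδ z hf
  have A1 := hs.aff.tot Y.ok hs.sm q
  obtain ⟨f0, h0⟩ := (Map77.adj_rem Y.ok).rp A0 8 (by norm_num)
  obtain ⟨f1, h1⟩ := (Map77.adj_rem Y.ok).rp A1 8 (by norm_num)
  obtain ⟨C, c1, c2⟩ := tot_cpt (U := U) (δ := δ) H hP hb q x.ht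
  refine (idx_iff Y.ok (by norm_num) h1 x).2 ((Ends.cq_two (X := Y) (by norm_num) hl A0 A1
    h0 h1 (y := x) (y' := x) rfl fun i hi k k0 => ?_).symm.fr
      ((idx_iff Y.ok (by norm_num) h0 x).1 hd))
  have hi' := (H.act_iff _ _).1 hi
  have l := Add46.loc_eq0 (r := r) (n := n) (m := min r 1) (k := 8) Y hl hi
    (hP.nil _ i.1.2).1 k k0
  have bs := bs_sl Y hl z (a := i) x.ht (hf i hi' _ x.ht)
  exact ⟨_, cyl_fz (Y := Add46.jX J i.1) bs (fun f => hF _ i.1.2 _ f bs) _ k k0, l,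
    loc_cpt Y (a := i) c1 c2 l⟩

/-- the slices of a restricted chart are flat -/
theorem flt_res (H : CS σ E) (hy : J.Ov σ c y.s) (ch : E.Ch δ₀ σ μ y x ψ) (hP : PJ J c)
    (h1 : P ⊆ p.P) : ∀ i ∈ EdP c P, ∀ t ∈ (b.F (sp p P P' ∅) U δ).Q, Flt (J.xs i.1).D
      ((en (res E x.t P P' ∅) i).sl (rf E x.t P P' ∅) (E.R + 1) t) := fun i ⟨π, a, k⟩ t ht => by
  erw [sl_rf H ch.z x.ht ∅ i (H.eo.R5.trans_lt (lt_add_one _)) ht]
  exact flt_ch H.toPG hy ch hP ⟨π, h1 a, k⟩ x.ht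

/-- restricted charts are smooth -/
theorem cs_res (H : CS σ E) (hy : J.Ov σ c y.s) (ch : E.Ch δ₀ σ μ y x ψ) (hP : PJ J c)
    (hδ : δ ≤ 1 / 16) (h1 : P ⊆ p.P) (h2 : P' ⊆ P) : CS σ (res E x.t P P' ∅) :=
  ⟨pg_sp H.toPG h1 h2, ok_res H ch.z x.ht ∅, H.hb, Mon62.smU (pg_sp H.toPG h1 h2) hP H.hb
    (ok_res H ch.z x.ht ∅) hδ rfl (flt_res H hy ch hP h1)⟩

/-- **the index of a restricted chart, with the terms** -/
theorem idx_rt (H : CS σ E) (hy : J.Ov σ c y.s) (ch : E.Ch δ₀ σ μ y x ψ) (hP : PJ J c)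
    (hδ : δ ≤ 1 / 16)
    (hF : ∀ a ∈ cylW c, ∀ β f, Bs (J.xs a).D β → Fz κ (lam ⊕ lam) 8 (Add46.jX J a) f β δ)
    (h1 : P ⊆ p.P) (h2 : P' ⊆ P) (h3 : P' ⊆ p.P') {d : ℤ} (hd : Rf65.Ix δ y P P' d)
    (q : Wi →₀ ℝ) : Idx 8 (EC.tot b (sp p P P' ∅) U δ q) (rx H x h1 h3 ∅) d :=
  idx_tot (E := res E x.t P P' ∅) (x := rx H x h1 h3 ∅) (pg_sp H.toPG h1 h2) H.hb
    (ok_res H ch.z x.ht ∅) rfl hP hδ hF (flt_res H hy ch hP h1)
    (idx_res H hy ch hP hF h1 h2 h3 hd _) q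

end job

open G75 Ins26
variable {κ lam : Type} [Fintype κ] [Fintype lam] [DecidableEq lam] (Lm : LM κ lam)

/-- **NTR-IX** -/
theorem ixr : Nr41.All Lm fun C _ => Nr41.Ix C := fun _ _ _ _ _ _ J c hJ hP => by
  obtain ⟨δ₀, h0, h1⟩ := exists_fz J c hJ hP
  refine ⟨δ₀, h0, fun δ hδ σ R b E q y x ψ ξ C _ _ P' s => ?_⟩
  exact idx_rt C.cs (C.θ ▸ C.cs.ovx x) C.ch hP (h1 δ hδ).2.1 (h1 δ hδ).2.2 Nr41.sub_in s
    (s.trans Nr41.sub_in) (C.an.spl.ex y _ _ (fun π k => C.cs.pok.pc π (Nr41.sub_in k)) s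
      (go_mono C.ch.go Nr41.sub_in)) q

end Crest.Agent.X212.Ncm43
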