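import Crest.Agent.X212.Lix26.Defs

/-! # Row 212, LIX-CL (1) (helper43): the text -/

set_option autoImplicit false
set_option linter.unusedSectionVars false
noncomputable section
open scoped Manifold ContDiff Topology
open Set Function Filter

namespace Crest.Agent.X212.Ncm43
open An Nd18 Qab60 Rdc90 Lix26
open M (Mf)
open Abel74 (fm)
open Dfl49 (PI One)
open Eqv71 (cj)
open Rod53 (S3' L4)

variable {Y : Mf 3} [CompactSpace Y.M] {κ : Type} [Fintype κ] {lam : Type} [Fintype lam]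
  (D : YD Y.I Y.M κ lam)
  {E : Type} [NormedAddCommGroup E] [NormedSpace ℝ E] [FiniteDimensional ℝ E]
  [MeasurableSpace E] [BorelSpace E]
  {HM : Type} [TopologicalSpace HM] (I : ModelWithCorners ℝ E HM) [I.Boundaryless]
  (M : Type) [TopologicalSpace M] [ChartedSpace HM M] [IsManifold I ∞ M] [T2Space M]
  [MeasurableSpace M] [BorelSpace M] [SecondCountableTopology M]

variable {D I M} in
/-- `V` is a parallel isomorphism from `(c₀, ξ₀)` to `(β, η)` on the cover `S³ × (0, ∞)` of the end,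
equivariant for the character `ζ ↦ ζ ^ j` of the deck group -/
structure Cvr {r : ℕ} {B : Base M (Option κ) lam} {G : Geo I M (Option κ) lam} (K : Nk D B G)
    (cv : S3' → Y.M) (c₀ : Cfg M (Option κ) lam r) (ξ₀ : M → c₀.m.A) (β : YC Y.M κ lam)
    (η : Y.M → β.m.A) (V : S3' × ℝ → CL c₀.m.V β.m.V) (j : ℤ) : Prop where
  loc : ∀ q : S3' × ℝ, 0 < q.2 → ∃ (u : Y.M × ℝ → CL c₀.m.V β.m.V) (O : Set (Y.M × ℝ)),
    IsOpen O ∧ (cv q.1, q.2) ∈ O ∧ O ⊆ univ ×ˢ Ioi 0 ∧ PI D.Z (K.pb c₀) (cy β) O u ∧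
    (∀ x ∈ O, η x.1 = cj (u x) (ξ₀ (K.ψ x))) ∧ V =ᶠ[𝓝 q] fun z => u (cv z.1, z.2)
  dk : ∀ (y y' : S3') (t : ℝ) (ζ : ℂ), 0 < t → ζ ^ 4 = 1 → L4 y' = ζ • L4 y →
    V (y', t) = V (y, t) ∘L csE (opL (ξ₀ (K.ψ (cv y, t)))) (ζ ^ j)

/-- **CL (1)** -/
def Cv1Stmt : Prop := ∀ (r : ℕ) (B : Base M (Option κ) lam) (G : Geo I M (Option κ) lam)
  (K : Nk D B G) (Ω : Set M) (cv : S3' → Y.M) (c₀ : Cfg M (Option κ) lam r) (ξ₀ : M → c₀.m.A) β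
  (η : Y.M → β.m.A), B.OK I → G.OK B → One K 1 0 Ω → Cv4 cv → Ab B G Ω c₀ ξ₀ →
  (∀ x ∈ Ω, fm G.F c₀.m c₀.W ξ₀ x = 0) → Bs D β →
  (Abel74.Red D.Z (cy β).m (cy β).W fun q => η q.1) →
  ∃ (V : S3' × ℝ → CL c₀.m.V β.m.V) (j : ℤ), -1 ≤ j ∧ j ≤ 2 ∧ Cvr K cv c₀ ξ₀ β η V j

end Crest.Agent.X212.Ncm43
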