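import Crest.Agent.X212.Ax1.Lf
import Crest.Agent.X212.Nr55.Rfl

/-! # Row 212, NTR-LF0 (helper43): inner variations of the spinor -/

set_option autoImplicit false
set_option linter.unusedSectionVars false
noncomputable section
open scoped Manifold ContDiff Topology
open Set Function Filter

namespace Crest.Agent.X212.Ncm43
open An M Nd18 Mod61 Nk89 Cht98 Rf65 Pte3 Nt66 Sob92 Ax1.Lf

section job
variable {Wi : Type} {X : Mf 4} {A κ lam : Type} [Fintype A] [Fintype κ] [Fintype lam]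
  [DecidableEq lam] {M : Mark X A κ} {W : World M} {N : ML M lam} {Λ : Lns W N}
  {A' h : Type} [Fintype A'] [DecidableEq A'] [Fintype h] {r n : ℕ}
  {J : Job Wi Λ A' h r n} {c : M.Cl} {σ : Cel A'} {p : Prt A A' h} {U : Type} [Fintype U] {δ : ℝ}
  {b : Bp J c} {E : EC b p U δ} {q : Wi →₀ ℝ} {Ω : Set (W.Z c).M} {x : Pnt E.o r}
  {f : E.C → E.Y}

/-- even rows do not see the variations of the spinor over `Ω` -/
theorem even_φ (H : CS σ E) (hO : IsClopen Ω) (hz : ∀ z ∈ Ω, x.cfg.Φ z = 0) (hf : E.Map q f)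
    (ψ : E.K) {Y : Type} [NormedAddCommGroup Y] [NormedSpace ℝ Y] (L : E.Y →L[ℝ] Y)
    (hL : ∀ a a' : E.Y, (∀ z ∉ Ω, (b.F p U δ).F0.val 8 E.o.Pm a'.1.1 z =
      (b.F p U δ).F0.val 8 E.o.Pm a.1.1 z) → a'.1.2 = a.1.2 → a'.2 = a.2 → L a' = L a)
    (φ : (b.F p U δ).F0.H 9 E.o.Pp) (h0 : ∀ z ∉ Ω, (b.F p U δ).F0.val 9 E.o.Pp φ z = 0) :
    L (fderiv ℝ f (x.pt 8, ψ) ((0, φ, 0), 0)) = 0 := by
  have S := H.F.sup
  have m : ∀ z v, Ω.indicator E.o.Pp z v = v → E.o.Pp z v = v := fun z v e => by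
    by_cases hz : z ∈ Ω
    · rwa [indicator_of_mem hz] at e
    · rw [ind_off e hz, map_zero]
  obtain ⟨φ', e⟩ := exists_rs S (by norm_num) hO (P := Ω.indicator E.o.Pp)
    (fun z hz => indicator_of_mem hz _) φ h0
  obtain rfl : φ = ex _ 9 _ _ φ' :=
    val_injective S (by norm_num) (e.symm.trans (val_ex S (by norm_num) m _).symm)
  clear e h0
  revert φ'
  refine funext_iff.1 (Continuous.ext_on (dense_ofV S (k := 9) (by norm_num)) (by fun_prop)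
    continuous_const ?_)
  rintro _ ⟨u, hu, rfl⟩
  have hu' := hs_ex S m hu
  refine (congrArg (fun a => L (fderiv ℝ f (x.pt 8, ψ) ((0, a, 0), 0)))
    (ex_ofV S (by norm_num) m hu)).trans ?_
  have d := L.hasFDerivAt.comp_hasDerivAt (0 : ℝ) (der_line (X := E.C) (x := (x.pt 8, ψ))
    (open_C H.F) hf.sm ⟨x.mem_U, trivial⟩ ((0, ofV _ 9 E.o.Pp u, 0), 0))
  have e : ∀ s : ℝ, ((x.pt 8, ψ) : E.C) + s • ((0, ofV _ 9 E.o.Pp u, 0), 0) =
      ((lφ x hu' s).pt 8, ψ) := fun s =>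
    Prod.ext (lφ_pt (k := 8) H.F x hu' (by norm_num) s).symm (by simp)
  refine der_even d fun s => ?_
  obtain ⟨k1, k2, k3⟩ := map_sn H hf ψ (y := lφ x hu' s) (y' := lφ x hu' (-s)) rfl rfl
    (lφ_eq H.F x hu' hO hz (fun z k => ind_off (Hs_proj S hu z) k) s)
  simp only [comp_apply, e]
  exact hL _ _ k1 k2 k3

/-- **variations of the spinor over `Ω` only change the Dirac row over `Ω`** -/
theorem tg_φ (H : CS σ E) (hO : IsClopen Ω) (hz : ∀ z ∈ Ω, x.cfg.Φ z = 0) (hf : E.Map q f)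
    (ψ : E.K) (φ : (b.F p U δ).F0.H 9 E.o.Pp)
    (h0 : ∀ z ∉ Ω, (b.F p U δ).F0.val 9 E.o.Pp φ z = 0) :
    Nr41.Tg Ω ∅ ∅ (Nr41.Ld f x ψ ((0, φ, 0), 0)) :=
  have k2 := even_φ H hO hz hf ψ (.snd ℝ _ _ ∘L .fst ℝ _ _) (fun _ _ _ k _ => k) φ h0
  have k3 := even_φ H hO hz hf ψ (Y := E.K × (p.H → ℝ))
    (ContinuousLinearMap.snd ℝ (E.o.Y n (min r 1) 8) (E.K × (p.H → ℝ))) (fun _ _ _ _ k => k) φ h0
  ⟨fun z k => even_φ H hO hz hf ψ ((b.F p U δ).F0.ev 8 E.o.Pm z ∘L .fst ℝ _ _ ∘L .fst ℝ _ _)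
      (fun _ _ e _ _ => e z k) φ h0,
    fun z _ => (congrArg (fun a : _ × _ => (b.F p U δ).F0.val 8 E.o.P2 a.1 z) k2).trans
      (congrFun val_zero z), congrArg Prod.snd k2,
    fun i _ => ⟨congrFun (congrArg Prod.fst k3) i, congrFun (congrArg Prod.snd k3) i⟩⟩

end job

open G75 Ins26
variable {κ lam : Type} [Fintype κ] [Fintype lam] [DecidableEq lam] (Lm : LM κ lam)

/-- **NTR-LF0** -/
theorem lf0 : Nr41.All Lm fun C f => Nr41.Lf0 f C := fun _ _ _ _ _ _ _ _ _ _ =>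
  ⟨1, one_pos, fun _ _ _ _ _ _ _ _ _ ψ _ C _ hf => tg_φ C.cs (Nr55.cl_in C) C.ins.ab.z hf ψ⟩

end Crest.Agent.X212.Ncm43
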